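import Vale.Agent.P132.Bd8.B2

/-!
# Half-sided modular inclusions: the unitary group

`DM`, `DN` are modular data of von Neumann algebras `M`, `N` with the same vector.  If
`Δ_N^{is} F(t) Δ_N^{-is}` with `F t = Δ_M^{it} Δ_N^{-it}`, `exp (-2πt) = 1 + exp (2πs)`, does not
depend on `s`, then `F t = S (exp (-2πt) - 1)` for a one parameter group `S` of unitaries that both
modular groups dilate.
-/

set_option autoImplicit false

open Filter Topology

namespace Vale.Agent.P352.BW.H547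

open Vale.Agent.P132

noncomputable section

universe u

variable {H : Type u} [NormedAddCommGroup H] [InnerProductSpace ℂ H] [CompleteSpace H]
variable {M N : VonNeumannAlgebra H} {ξ : H}

/-- `S` is the one parameter group of a half-sided modular inclusion. -/
structure HGrp (DM : ModData M ξ) (DN : ModData N ξ) (S : ℝ → H →L[ℂ] H) : Prop where
  zero : S 0 = 1
  add : ∀ c c', S (c + c') = S c * S c'
  star_eq : ∀ c, star (S c) = S (-c)
  F : ∀ t, DM.U t * DN.U (-t) = S (Real.exp (-(2 * Real.pi * t)) - 1)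
  covN : ∀ s c, DN.U s * S c * DN.U (-s) = S (Real.exp (-(2 * Real.pi * s)) * c)
  covM : ∀ s c, DM.U s * S c * DM.U (-s) = S (Real.exp (-(2 * Real.pi * s)) * c)
  xi : ∀ c, S c ξ = ξ
  cont : ∀ v, Continuous fun c => S c v

/-- the hypothesis: the matrix functions are constant -/
def HConst (DM : ModData M ξ) (DN : ModData N ξ) : Prop :=
  ∃ K : H →L[ℂ] H, ∀ s t, Real.exp (-(2 * Real.pi * t)) = 1 + Real.exp (2 * Real.pi * s) →
    DN.U s * (DM.U t * DN.U (-t)) * DN.U (-s) = K

/-- `exp (-2π tc) = 1 + c` -/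
def tc (c : ℝ) : ℝ := -(Real.log (1 + c)) / (2 * Real.pi)

theorem exp_tc {c : ℝ} (hc : -1 < c) : Real.exp (-(2 * Real.pi * tc c)) = 1 + c := by
  have h2 : -(2 * Real.pi * tc c) = Real.log (1 + c) := by
    unfold tc; field_simp
  rw [h2, Real.exp_log (by linarith)]

theorem exp2_inj {s t : ℝ} (h : Real.exp (-(2 * Real.pi * s)) = Real.exp (-(2 * Real.pi * t))) :
    s = t := by
  have h1 := Real.exp_injective h
  have h2 : (0 : ℝ) < 2 * Real.pi := by positivity
  have h3 : 2 * Real.pi * s = 2 * Real.pi * t := by linarith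
  exact mul_left_cancel₀ h2.ne' h3

theorem tc_exp (t : ℝ) : tc (Real.exp (-(2 * Real.pi * t)) - 1) = t := by
  apply exp2_inj
  rw [exp_tc (by have := Real.exp_pos (-(2 * Real.pi * t)); linarith)]
  ring

theorem tc_zero : tc 0 = 0 := by simp [tc]

theorem tc_nonpos {c : ℝ} (hc : 0 ≤ c) : tc c ≤ 0 := by
  unfold tc
  have h1 : 0 ≤ Real.log (1 + c) := Real.log_nonneg (by linarith)
  have h2 : 0 < 2 * Real.pi := by positivity
  rw [neg_div]
  have := div_nonneg h1 h2.le
  linarith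

section build

variable (DM : ModData M ξ) (DN : ModData N ξ)

/-- `F t = Δ_M^{it} Δ_N^{-it}` -/
def FF (t : ℝ) : H →L[ℂ] H := DM.U t * DN.U (-t)

theorem FF_zero : FF DM DN 0 = 1 := by simp [FF]

theorem FF_star_mul (t : ℝ) : star (FF DM DN t) * FF DM DN t = 1 := by
  unfold FF
  rw [star_mul, DM.star_U, DN.star_U, neg_neg]
  calc DN.U t * DM.U (-t) * (DM.U t * DN.U (-t))
      = DN.U t * (DM.U (-t) * DM.U t) * DN.U (-t) := by simp only [mul_assoc]
    _ = 1 := by rw [DM.U_neg_mul_U, mul_one, DN.U_mul_U_neg]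

theorem FF_mul_star (t : ℝ) : FF DM DN t * star (FF DM DN t) = 1 := by
  unfold FF
  rw [star_mul, DM.star_U, DN.star_U, neg_neg]
  calc DM.U t * DN.U (-t) * (DN.U t * DM.U (-t))
      = DM.U t * (DN.U (-t) * DN.U t) * DM.U (-t) := by simp only [mul_assoc]
    _ = 1 := by rw [DN.U_neg_mul_U, mul_one, DM.U_mul_U_neg]

theorem FF_add (s t : ℝ) :
    FF DM DN (s + t) = FF DM DN s * (DN.U s * FF DM DN t * DN.U (-s)) := by
  unfold FF
  calc DM.U (s + t) * DN.U (-(s + t))
      = DM.U s * DM.U t * (DN.U (-t) * DN.U (-s)) := by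
        rw [DM.U_add, ← DN.U_add]; congr 2; ring
    _ = DM.U s * (DN.U (-s) * DN.U s) * (DM.U t * DN.U (-t) * DN.U (-s)) := by
        rw [DN.U_neg_mul_U, mul_one]; simp only [mul_assoc]
    _ = _ := by simp only [mul_assoc]

variable {DM DN}

theorem cov0 (hK : HConst DM DN) {c : ℝ} (hc : 0 < c) (s : ℝ) :
    DN.U s * FF DM DN (tc c) * DN.U (-s)
      = FF DM DN (tc (Real.exp (-(2 * Real.pi * s)) * c)) := by
  obtain ⟨K, hK⟩ := hK
  have key : ∀ {c : ℝ} (_ : 0 < c) (r : ℝ), Real.exp (2 * Real.pi * r) = c →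
      FF DM DN (tc c) = DN.U (-r) * K * DN.U r := by
    intro c hc r hr
    have h1 := hK r (tc c) (by rw [exp_tc (by linarith), hr])
    rw [← h1]
    calc FF DM DN (tc c) = DN.U (-r) * DN.U r * FF DM DN (tc c) * (DN.U (-r) * DN.U r) := by
          rw [DN.U_neg_mul_U, one_mul, mul_one]
      _ = _ := by unfold FF; simp only [mul_assoc]
  set r : ℝ := Real.log c / (2 * Real.pi) with hr
  have h1 : Real.exp (2 * Real.pi * r) = c := by
    have : 2 * Real.pi * r = Real.log c := by rw [hr]; field_simp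
    rw [this, Real.exp_log hc]
  have h2 : Real.exp (2 * Real.pi * (r - s)) = Real.exp (-(2 * Real.pi * s)) * c := by
    rw [← h1, ← Real.exp_add]; congr 1; ring
  rw [key hc r h1, key (by positivity) (r - s) h2]
  have e1 : DN.U (-(r - s)) = DN.U s * DN.U (-r) := by rw [← DN.U_add]; congr 1; ring
  have e2 : DN.U (r - s) = DN.U r * DN.U (-s) := by rw [← DN.U_add]; congr 1
  rw [e1, e2]
  simp only [mul_assoc]

theorem semi (hK : HConst DM DN) {c c' : ℝ} (hc : -1 < c) (hc' : 0 < c') :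
    FF DM DN (tc c) * FF DM DN (tc c') = FF DM DN (tc (c + c')) := by
  have h1 : 0 < 1 + c := by linarith
  have h2 : 0 < c' / (1 + c) := div_pos hc' h1
  have e1 : tc (c + c') = tc c + tc (c' / (1 + c)) := by
    apply exp2_inj
    have : -(2 * Real.pi * (tc c + tc (c' / (1 + c))))
        = -(2 * Real.pi * tc c) + -(2 * Real.pi * tc (c' / (1 + c))) := by ring
    rw [this, Real.exp_add, exp_tc hc, exp_tc (by linarith), exp_tc (by linarith)]
    field_simp
    ring
  rw [e1, FF_add, cov0 hK h2, exp_tc hc]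
  congr 3
  field_simp

variable (DM DN)

/-- the group -/
def SS (c : ℝ) : H →L[ℂ] H := if 0 ≤ c then FF DM DN (tc c) else star (FF DM DN (tc (-c)))

theorem SS_nonneg {c : ℝ} (hc : 0 ≤ c) : SS DM DN c = FF DM DN (tc c) := if_pos hc

theorem SS_neg {c : ℝ} (hc : c < 0) : SS DM DN c = star (FF DM DN (tc (-c))) :=
  if_neg (not_le.2 hc)

theorem SS_zero : SS DM DN 0 = 1 := by rw [SS_nonneg DM DN le_rfl, tc_zero, FF_zero]

theorem SS_star (c : ℝ) : star (SS DM DN c) = SS DM DN (-c) := by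
  rcases lt_trichotomy c 0 with h | h | h
  · rw [SS_neg DM DN h, star_star, SS_nonneg DM DN (by linarith)]
  · rw [h, neg_zero, SS_zero, star_one]
  · rw [SS_nonneg DM DN h.le, SS_neg DM DN (by linarith : -c < 0), neg_neg]

theorem SS_star_mul (c : ℝ) : star (SS DM DN c) * SS DM DN c = 1 := by
  rcases le_or_gt 0 c with h | h
  · rw [SS_nonneg DM DN h, FF_star_mul]
  · rw [SS_neg DM DN h, star_star, FF_mul_star]

theorem SS_mul_star (c : ℝ) : SS DM DN c * star (SS DM DN c) = 1 := by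
  rcases le_or_gt 0 c with h | h
  · rw [SS_nonneg DM DN h, FF_mul_star]
  · rw [SS_neg DM DN h, star_star, FF_star_mul]

variable {DM DN}

theorem SS_add_nonneg (hK : HConst DM DN) {c c' : ℝ} (hc : 0 ≤ c) (hc' : 0 ≤ c') :
    SS DM DN c * SS DM DN c' = SS DM DN (c + c') := by
  rcases eq_or_lt_of_le hc' with h | h
  · rw [← h, SS_zero, mul_one, add_zero]
  · rw [SS_nonneg DM DN hc, SS_nonneg DM DN hc', SS_nonneg DM DN (by linarith),
      semi hK (by linarith) h]

theorem SS_eq_FF (hK : HConst DM DN) {c : ℝ} (hc : -1 < c) : SS DM DN c = FF DM DN (tc c) := by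
  rcases le_or_gt 0 c with h | h
  · exact SS_nonneg DM DN h
  · have h1 := semi hK hc (c' := -c) (by linarith)
    rw [add_neg_cancel, tc_zero, FF_zero] at h1
    rw [SS_neg DM DN h]
    calc star (FF DM DN (tc (-c))) = FF DM DN (tc c) * FF DM DN (tc (-c)) *
          star (FF DM DN (tc (-c))) := by rw [h1, one_mul]
      _ = _ := by rw [mul_assoc, FF_mul_star, mul_one]

theorem SS_add (hK : HConst DM DN) (c c' : ℝ) :
    SS DM DN (c + c') = SS DM DN c * SS DM DN c' := by
  rcases le_or_gt 0 c with h | h <;> rcases le_or_gt 0 c' with h' | h'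
  · exact (SS_add_nonneg hK h h').symm
  · rcases le_or_gt 0 (c + c') with h3 | h3
    · have e := SS_add_nonneg hK h3 (c' := -c') (by linarith)
      rw [add_neg_cancel_right] at e
      rw [← e, mul_assoc, ← SS_star DM DN c', SS_star_mul, mul_one]
    · have e := SS_add_nonneg hK (c := -(c + c')) (c' := c) (by linarith) h
      have e2 : -(c + c') + c = -c' := by ring
      rw [e2] at e
      have e3 := congrArg star e
      rw [star_mul, SS_star, SS_star, SS_star, neg_neg, neg_neg] at e3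
      rw [← e3, ← mul_assoc, ← SS_star DM DN c, SS_mul_star, one_mul]
  · rcases le_or_gt 0 (c + c') with h3 | h3
    · have e := SS_add_nonneg hK (c := -c) (c' := c + c') (by linarith) h3
      rw [neg_add_cancel_left] at e
      rw [← e, ← mul_assoc, ← SS_star DM DN c, SS_mul_star, one_mul]
    · have e := SS_add_nonneg hK (c := c') (c' := -(c + c')) h' (by linarith)
      have e2 : c' + -(c + c') = -c := by ring
      rw [e2] at e
      have e3 := congrArg star e
      rw [star_mul, SS_star, SS_star, SS_star, neg_neg, neg_neg] at e3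
      rw [← e3, mul_assoc, ← SS_star DM DN c', SS_star_mul, mul_one]
  · have e := SS_add_nonneg hK (c := -c') (c' := -c) (by linarith) (by linarith)
    have e3 := congrArg star e
    rw [star_mul, SS_star, SS_star, SS_star, neg_neg, neg_neg, neg_add, neg_neg, neg_neg] at e3
    rw [e3, add_comm]

theorem SS_covN (hK : HConst DM DN) (s c : ℝ) :
    DN.U s * SS DM DN c * DN.U (-s) = SS DM DN (Real.exp (-(2 * Real.pi * s)) * c) := by
  have pos : ∀ {c : ℝ}, 0 < c →
      DN.U s * SS DM DN c * DN.U (-s) = SS DM DN (Real.exp (-(2 * Real.pi * s)) * c) := by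
    intro c hc
    rw [SS_nonneg DM DN hc.le, SS_nonneg DM DN (by positivity), cov0 hK hc]
  rcases lt_trichotomy c 0 with h | h | h
  · have h1 := congrArg star (pos (c := -c) (by linarith))
    rw [star_mul, star_mul, SS_star, SS_star, DN.star_U, DN.star_U, neg_neg, neg_neg,
      ← mul_assoc] at h1
    rw [h1]; congr 1; ring
  · rw [h, mul_zero, SS_zero, mul_one, DN.U_mul_U_neg]
  · exact pos h

theorem SS_F (hK : HConst DM DN) (t : ℝ) :
    DM.U t * DN.U (-t) = SS DM DN (Real.exp (-(2 * Real.pi * t)) - 1) := by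
  rw [SS_eq_FF hK (by have := Real.exp_pos (-(2 * Real.pi * t)); linarith), tc_exp]
  rfl

theorem SS_covM (hK : HConst DM DN) (s c : ℝ) :
    DM.U s * SS DM DN c * DM.U (-s) = SS DM DN (Real.exp (-(2 * Real.pi * s)) * c) := by
  set e : ℝ := Real.exp (-(2 * Real.pi * s)) with he
  have h1 : DM.U s = SS DM DN (e - 1) * DN.U s := by
    rw [he, ← SS_F hK, mul_assoc, DN.U_neg_mul_U, mul_one]
  have h2 : DM.U (-s) = DN.U (-s) * SS DM DN (-(e - 1)) := by
    rw [← DM.star_U, h1, star_mul, DN.star_U, SS_star]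
  calc DM.U s * SS DM DN c * DM.U (-s)
      = SS DM DN (e - 1) * (DN.U s * SS DM DN c * DN.U (-s)) * SS DM DN (-(e - 1)) := by
        rw [h1, h2]; simp only [mul_assoc]
    _ = _ := by
        rw [SS_covN hK, ← he, ← SS_add hK, ← SS_add hK]; congr 1; ring

theorem SS_xi (c : ℝ) : SS DM DN c ξ = ξ := by
  have h : ∀ t, FF DM DN t ξ = ξ := by
    intro t
    show DM.U t (DN.U (-t) ξ) = ξ
    rw [DN.U_xi, DM.U_xi]
  have h' : ∀ t, star (FF DM DN t) ξ = ξ := by
    intro t
    unfold FF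
    rw [star_mul, DM.star_U, DN.star_U]
    show DN.U (- -t) (DM.U (-t) ξ) = ξ
    rw [DM.U_xi, DN.U_xi]
  unfold SS
  split_ifs
  · exact h _
  · exact h' _

theorem SS_cont (hK : HConst DM DN) (v : H) : Continuous fun c => SS DM DN c v := by
  rw [continuous_iff_continuousAt]
  intro c₀
  have h0 : ContinuousAt (fun c => SS DM DN c v) 0 := by
    have h1 : ContinuousAt (fun c => DM.U (tc c) (DN.U (-tc c) v)) 0 := by
      have h2 : Continuous fun t : ℝ => DM.U t (DN.U (-t) v) :=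
        DM.continuous_U_comp ((DN.continuous_U v).comp continuous_neg) continuous_id
      have h3 : ContinuousAt tc 0 := by
        unfold tc
        have : ContinuousAt (fun c : ℝ => Real.log (1 + c)) 0 :=
          ContinuousAt.log (by fun_prop) (by norm_num)
        exact this.neg.div_const _
      exact ContinuousAt.comp (f := tc) (g := fun t : ℝ => DM.U t (DN.U (-t) v))
        h2.continuousAt h3
    refine h1.congr ?_
    filter_upwards [lt_mem_nhds (show (-1 : ℝ) < 0 by norm_num)] with c hc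
    rw [SS_eq_FF hK hc]
    rfl
  have h4 : (fun c => SS DM DN c v) = fun c => SS DM DN c₀ (SS DM DN (c - c₀) v) := by
    ext c
    have : c = c₀ + (c - c₀) := by ring
    conv_lhs => rw [this, SS_add hK]
    rfl
  rw [h4]
  refine (SS DM DN c₀).continuous.continuousAt.comp ?_
  have h5 : ContinuousAt (fun c : ℝ => c - c₀) c₀ := by fun_prop
  have h6 : ContinuousAt (fun c => SS DM DN c v) (c₀ - c₀) := by rwa [sub_self]
  exact ContinuousAt.comp (f := fun c : ℝ => c - c₀) h6 h5

theorem hgrp_SS (hK : HConst DM DN) : HGrp DM DN (SS DM DN) where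
  zero := SS_zero DM DN
  add := SS_add hK
  star_eq := SS_star DM DN
  F := SS_F hK
  covN := SS_covN hK
  covM := SS_covM hK
  xi := SS_xi
  cont := SS_cont hK

theorem exists_hgrp (hK : HConst DM DN) : ∃ S, HGrp DM DN S := ⟨_, hgrp_SS hK⟩

end build

namespace HGrp

variable {DM : ModData M ξ} {DN : ModData N ξ} {S : ℝ → H →L[ℂ] H}

theorem mul_neg_self (h : HGrp DM DN S) (c : ℝ) : S c * S (-c) = 1 := by
  rw [← h.add, add_neg_cancel, h.zero]

theorem neg_mul_self (h : HGrp DM DN S) (c : ℝ) : S (-c) * S c = 1 := by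
  rw [← h.add, neg_add_cancel, h.zero]

theorem apply_neg (h : HGrp DM DN S) (c : ℝ) (v : H) : S c (S (-c) v) = v :=
  congrArg (fun f : H →L[ℂ] H => f v) (h.mul_neg_self c)

theorem neg_apply (h : HGrp DM DN S) (c : ℝ) (v : H) : S (-c) (S c v) = v :=
  congrArg (fun f : H →L[ℂ] H => f v) (h.neg_mul_self c)

theorem add_apply (h : HGrp DM DN S) (c c' : ℝ) (v : H) : S (c + c') v = S c (S c' v) :=
  congrArg (fun f : H →L[ℂ] H => f v) (h.add c c')

theorem inner_eq (h : HGrp DM DN S) (c : ℝ) (v w : H) :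
    inner ℂ (S c v) (S c w) = inner ℂ v w := by
  rw [← ContinuousLinearMap.adjoint_inner_right, ← ContinuousLinearMap.star_eq_adjoint,
    h.star_eq, h.neg_apply]

theorem norm_eq (h : HGrp DM DN S) (c : ℝ) (v : H) : ‖S c v‖ = ‖v‖ := by
  rw [@norm_eq_sqrt_re_inner ℂ, @norm_eq_sqrt_re_inner ℂ _ _ _ _ v, h.inner_eq]

/-- `Δ_N^{it} = S (1 - exp (-2πt)) Δ_M^{it}` -/
theorem N_eq (h : HGrp DM DN S) (t : ℝ) :
    DN.U t = S (1 - Real.exp (-(2 * Real.pi * t))) * DM.U t := by
  have h1 := h.F t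
  have h2 : DM.U t = S (Real.exp (-(2 * Real.pi * t)) - 1) * DN.U t := by
    rw [← h1, mul_assoc, DN.U_neg_mul_U, mul_one]
  have h3 : S (1 - Real.exp (-(2 * Real.pi * t))) = S (-(Real.exp (-(2 * Real.pi * t)) - 1)) := by
    congr 1; ring
  rw [h3, h2, ← mul_assoc, h.neg_mul_self, one_mul]

theorem eq_FF (h : HGrp DM DN S) {c : ℝ} (hc : -1 < c) :
    S c = DM.U (tc c) * DN.U (-(tc c)) := by
  rw [h.F, exp_tc hc]; congr 1; ring

/-- the group is unique -/
theorem unique (h : HGrp DM DN S) {S' : ℝ → H →L[ℂ] H} (h' : HGrp DM DN S') : S = S' := by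
  ext1 c
  rcases le_or_gt 0 c with hc | hc
  · rw [h.eq_FF (by linarith), h'.eq_FF (by linarith)]
  · have e1 : S c = star (S (-c)) := by rw [h.star_eq, neg_neg]
    have e2 : S' c = star (S' (-c)) := by rw [h'.star_eq, neg_neg]
    rw [e1, e2, h.eq_FF (by linarith), h'.eq_FF (by linarith)]

/-- `S c N S (-c) ⊆ N`, `c ≥ 0` -/
theorem mem_N (h : HGrp DM DN S) (half : ∀ t ≤ 0, ∀ a ∈ N, DM.sg t a ∈ N) {c : ℝ} (hc : 0 ≤ c)
    {a : H →L[ℂ] H} (ha : a ∈ N) : S c * a * S (-c) ∈ N := by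
  have h1 : S c * a * S (-c) = DM.sg (tc c) (DN.sg (-(tc c)) a) := by
    have e1 : S c = DM.U (tc c) * DN.U (-(tc c)) := h.eq_FF (by linarith)
    have e2 : S (-c) = DN.U (tc c) * DM.U (-(tc c)) := by
      rw [← h.star_eq, e1, star_mul, DM.star_U, DN.star_U, neg_neg]
    rw [e1, e2]
    simp only [ModData.sg, mul_assoc, neg_neg]
  rw [h1]
  exact half _ (tc_nonpos hc) _ (DN.sg_mem ha _)

/-- `S c N_t S (-c) ⊆ N_t`, `N_t = Δ_M^{it} N Δ_M^{-it}`, `c ≥ 0` -/
theorem conj_sg (h : HGrp DM DN S) (half : ∀ t ≤ 0, ∀ a ∈ N, DM.sg t a ∈ N) {c : ℝ} (hc : 0 ≤ c)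
    (t : ℝ) {a : H →L[ℂ] H} (ha : a ∈ N) :
    ∃ b ∈ N, S c * DM.sg t a * S (-c) = DM.sg t b := by
  have e1 : S c * DM.U t = DM.U t * S (Real.exp (2 * Real.pi * t) * c) := by
    have h1 := h.covM (-t) c
    have h2 : -(2 * Real.pi * -t) = 2 * Real.pi * t := by ring
    rw [h2, neg_neg] at h1
    rw [← h1, ← mul_assoc, ← mul_assoc, DM.U_mul_U_neg, one_mul]
  have e2 : DM.U (-t) * S (-c) = S (-(Real.exp (2 * Real.pi * t) * c)) * DM.U (-t) := by
    have h1 := congrArg star e1
    rwa [star_mul, star_mul, DM.star_U, h.star_eq, h.star_eq] at h1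
  refine ⟨S (Real.exp (2 * Real.pi * t) * c) * a * S (-(Real.exp (2 * Real.pi * t) * c)),
    h.mem_N half (by positivity) ha, ?_⟩
  calc S c * DM.sg t a * S (-c) = (S c * DM.U t) * a * (DM.U (-t) * S (-c)) := by
        simp only [ModData.sg, mul_assoc]
    _ = _ := by rw [e1, e2]; simp only [ModData.sg, mul_assoc]

theorem conj_sg_mem (h : HGrp DM DN S) (hsub : ∀ a ∈ N, a ∈ M)
    (half : ∀ t ≤ 0, ∀ a ∈ N, DM.sg t a ∈ N) {c : ℝ} (hc : 0 ≤ c)
    (t : ℝ) {a : H →L[ℂ] H} (ha : a ∈ N) : S c * DM.sg t a * S (-c) ∈ M := by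
  obtain ⟨b, hb, e⟩ := h.conj_sg half hc t ha
  rw [e]
  exact DM.sg_mem (hsub b hb) t

/-- `S c M S (-c) ⊆ M`, `c ≥ 0`, if `M` is generated by the `Δ_M^{it} N Δ_M^{-it}` -/
theorem mem_M (h : HGrp DM DN S) (hsub : ∀ a ∈ N, a ∈ M)
    (half : ∀ t ≤ 0, ∀ a ∈ N, DM.sg t a ∈ N)
    (hreg : ∀ y : H →L[ℂ] H, (∀ t, ∀ a ∈ N, DM.sg t a * y = y * DM.sg t a) → y ∈ M.commutant)
    {c : ℝ} (hc : 0 ≤ c) {b : H →L[ℂ] H} (hb : b ∈ M) : S c * b * S (-c) ∈ M := by
  rw [← VonNeumannAlgebra.commutant_commutant M, VonNeumannAlgebra.mem_commutant_iff]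
  intro y hy
  have h1 : S (-c) * y * S c ∈ M.commutant := by
    refine hreg _ fun t a ha => ?_
    have h2 := VonNeumannAlgebra.mem_commutant_iff.1 hy _ (h.conj_sg_mem hsub half hc t ha)
    calc DM.sg t a * (S (-c) * y * S c)
        = S (-c) * (S c * DM.sg t a * S (-c) * y) * S c := by
          simp only [← mul_assoc, h.neg_mul_self, one_mul]
      _ = S (-c) * (y * (S c * DM.sg t a * S (-c))) * S c := by rw [h2]
      _ = S (-c) * y * S c * DM.sg t a * (S (-c) * S c) := by simp only [mul_assoc]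
      _ = _ := by rw [h.neg_mul_self, mul_one]
  have h3 := VonNeumannAlgebra.mem_commutant_iff.1 h1 _ hb
  calc y * (S c * b * S (-c)) = S c * (S (-c) * y * S c * b) * S (-c) := by
        simp only [← mul_assoc, h.mul_neg_self, one_mul]
    _ = S c * (b * (S (-c) * y * S c)) * S (-c) := by rw [h3]
    _ = S c * b * S (-c) * y * (S c * S (-c)) := by simp only [mul_assoc]
    _ = _ := by rw [h.mul_neg_self, mul_one]

end HGrp

end

end Vale.Agent.P352.BW.H547
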