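import Vale.Agent.P352.BW.Spec
import Vale.Agent.P352.BW.H547.Grp

/-! # P352 BW, block F: the group law -/

set_option linter.all false

noncomputable section

namespace Vale.Agent.P352.BW

open Vale.Agent.P132 (ModData)

variable {H : Type*} [NormedAddCommGroup H] [InnerProductSpace ℂ H] [CompleteSpace H]
variable {M N : VonNeumannAlgebra H} {ξ : H}

/-- block F -/
theorem fblock (DM : ModData M ξ) (DN : ModData N ξ) (hD : DStmt DM DN) : FStmt DM DN := by
  intro hs
  have hK : H547.HConst DM DN := by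
    refine ⟨Uc DM DN 1, fun s t h => ?_⟩
    have h1 : t = tc (Real.exp (2 * Real.pi * s)) := by
      apply H547.exp2_inj
      rw [h]
      exact (H547.exp_tc (by have := Real.exp_pos (2 * Real.pi * s); linarith)).symm
    have h2 := hD hs 1 s one_pos
    rw [mul_one] at h2
    have h3 : DM.U t * DN.U (-t) = Uc DM DN (Real.exp (2 * Real.pi * s)) := by rw [h1]; rfl
    rw [h3, ← h2]
    calc DN.U s * (DN.U (-s) * Uc DM DN 1 * DN.U s) * DN.U (-s)
        = (DN.U s * DN.U (-s)) * Uc DM DN 1 * (DN.U s * DN.U (-s)) := by simp only [mul_assoc]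
      _ = _ := by rw [DN.U_mul_U_neg, one_mul, mul_one]
  obtain ⟨S, h⟩ := H547.exists_hgrp hK
  refine ⟨S, ⟨h.zero, h.add, h.star_eq, h.cont, h.xi, h.N_eq, fun s c => ?_,
    fun c hc X hX => ⟨S c * X * S (-c), h.mem_N hs.mod hc hX, ?_⟩⟩⟩
  · rw [← h.covM s c, mul_assoc, DM.U_neg_mul_U, mul_one]
  · rw [mul_assoc, h.neg_mul_self, mul_one]

end Vale.Agent.P352.BW

end
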